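import Vale.Agent.P129BZ.Scal

/-!
# Positive semidefinite hermitian forms
-/

set_option linter.unusedSectionVars false

namespace Vale.Agent.P129B

variable {R : Type*} [Field R] [LinearOrder R] [IsStrictOrderedRing R]
  {K : Type*} [Field K] [Algebra R K] [Nm K R] [KA R K]
  {V : Type*} [AddCommGroup V] [Module K V]

/-- `ip` is a positive semidefinite hermitian form with seminorm `s`. -/
structure SIP (ip : V → V → K) (s : V → R) : Prop where
  add : ∀ x y z, ip x (y + z) = ip x y + ip x z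
  smul : ∀ (c : K) x y, ip x (c • y) = c * ip x y
  conj : ∀ x y, KA.conj (ip x y) = ip y x
  nonneg : ∀ x, 0 ≤ s x
  sq : ∀ x, s x ^ 2 = KA.re (ip x x)

namespace SIP

variable {ip : V → V → K} {s : V → R} (h : SIP ip s)
include h

theorem add_left (x y z : V) : ip (x + y) z = ip x z + ip y z := by
  rw [← h.conj, h.add, map_add, h.conj, h.conj]

theorem smul_left (c : K) (x y : V) : ip (c • x) y = KA.conj c * ip x y := by
  rw [← h.conj, h.smul, map_mul, h.conj]

theorem zero (x : V) : ip x 0 = 0 := by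
  have := h.smul 0 x 0
  rwa [zero_smul, zero_mul] at this

theorem zero_left (x : V) : ip 0 x = 0 := by rw [← h.conj, h.zero, map_zero]

theorem neg (x y : V) : ip x (-y) = -ip x y := by
  have := h.smul (-1) x y
  rwa [neg_one_smul, neg_one_mul] at this

theorem neg_left (x y : V) : ip (-x) y = -ip x y := by rw [← h.conj, h.neg, map_neg, h.conj]

theorem sub (x y z : V) : ip x (y - z) = ip x y - ip x z := by
  rw [sub_eq_add_neg, h.add, h.neg, sub_eq_add_neg]

theorem sub_left (x y z : V) : ip (x - y) z = ip x z - ip y z := by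
  rw [sub_eq_add_neg, h.add_left, h.neg_left, sub_eq_add_neg]

theorem re_symm (x y : V) : KA.re (ip y x) = KA.re (ip x y) := by rw [← h.conj, KA.re_conj]

theorem nm_symm (x y : V) : nm (ip y x) = nm (ip x y) := by rw [← h.conj, KA.nm_conj]

theorem self (x : V) : ip x x = algebraMap R K (s x ^ 2) := by
  have h1 : KA.im (ip x x) = -KA.im (ip x x) := by rw [← KA.im_conj, h.conj]
  rw [h.sq, KA.ofR_re (by linarith)]

theorem sq_add (x y : V) : s (x + y) ^ 2 = s x ^ 2 + 2 * KA.re (ip x y) + s y ^ 2 := by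
  rw [h.sq, h.sq, h.sq, h.add, h.add_left, h.add_left, map_add, map_add, map_add, h.re_symm x y]
  ring

theorem s_smul (c : K) (x : V) : s (c • x) = nm c * s x := by
  refine (sq_eq_sq₀ (h.nonneg _) (mul_nonneg (nm_nonneg c) (h.nonneg x))).1 ?_
  rw [h.sq, h.smul, h.smul_left, ← mul_assoc, KA.mul_conj_self, KA.re_ofR_mul, ← h.sq, mul_pow]

theorem s_zero : s 0 = 0 := by
  have := h.s_smul 0 0
  rwa [zero_smul, nm_zero, zero_mul] at this

theorem s_neg (x : V) : s (-x) = s x := by
  have := h.s_smul (-1) x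
  rwa [neg_one_smul, nm_neg, KA.nm_one, one_mul] at this

theorem re_le (x y : V) : KA.re (ip x y) ≤ s x * s y := by
  have h1 : discrim (s y ^ 2) (2 * KA.re (ip x y)) (s x ^ 2) ≤ 0 := discrim_le_zero fun t => by
    have h2 := h.sq_add x (algebraMap R K t • y)
    rw [h.s_smul, h.smul, KA.re_ofR_mul, KA.nm_ofR, mul_pow, sq_abs] at h2
    nlinarith [sq_nonneg (s (x + algebraMap R K t • y))]
  rw [discrim] at h1
  exact le_of_sq_le_sq (by nlinarith) (mul_nonneg (h.nonneg x) (h.nonneg y))

/-- Cauchy-Schwarz -/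
theorem cs (x y : V) : nm (ip x y) ≤ s x * s y := by
  have := h.re_le x (KA.rot (ip x y) • y)
  rwa [h.smul, KA.rot_mul, KA.re_ofR, h.s_smul, KA.nm_rot, one_mul] at this

theorem s_add (x y : V) : s (x + y) ≤ s x + s y := by
  refine le_of_sq_le_sq ?_ (add_nonneg (h.nonneg x) (h.nonneg y))
  rw [h.sq_add]
  nlinarith [h.re_le x y]

theorem s_sub (x y : V) : s (x - y) ≤ s x + s y := by
  rw [sub_eq_add_neg, ← h.s_neg y]; exact h.s_add _ _

theorem s_le_add_sub (x y : V) : s x ≤ s y + s (x - y) := by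
  have := h.s_add y (x - y)
  rwa [add_sub_cancel] at this

theorem le_of_ip {x : V} {c : R} (hc : 0 ≤ c) (k : nm (ip x x) ≤ c * s x) : s x ≤ c := by
  rw [h.self, KA.nm_ofR_of_nonneg (sq_nonneg _)] at k
  by_contra k1
  nlinarith [not_le.1 k1]

end SIP

end Vale.Agent.P129B
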