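import Vale.Agent.P070ZC.Sip
import Vale.Agent.P129B.Real
import Vale.Agent.P129BB.Geo
import Vale.Agent.P129BI.FP

/-!
# The Hilbert completion of a pre-Hilbert space of a model

The completion consists of the internal functions `V → K` which are uniform limits of the
functions `y ↦ ip y x`.
-/

set_option linter.unusedSectionVars false

namespace Vale.Agent.P129B

universe v

variable {N : Type v} [ZM N] {α : Type*} [Coded N α]
  {R : Type*} [Field R] [LinearOrder R] [IsStrictOrderedRing R] [Coded N R] [RF N R]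
  {K : Type*} [Field K] [Algebra R K] [Nm K R] [KA R K] [Coded N K] [KF N R K]
  {V : Type*} [AddCommGroup V] [Module K V] [Coded N V] [Tot N V] [DefAdd N V] [DefSMul N K V]

variable (N K V) in
/-- a definable positive semidefinite hermitian form -/
structure PreH where
  ip : V → V → K
  defIp : DefF N (fun p : V × V => ip p.1 p.2)
  add : ∀ x y z, ip x (y + z) = ip x y + ip x z
  smul : ∀ (c : K) x y, ip x (c • y) = c * ip x y
  conj : ∀ x y, KA.conj (ip x y) = ip y x
  pos : ∀ x, 0 ≤ KA.re (ip x x)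

theorem eq_of_small {a b : K} (D : R) (h : ∀ ε : R, 0 < ε → ε ≤ 1 → nm (a - b) ≤ ε * D) :
    a = b := by
  have hD : 0 ≤ D := by simpa using (nm_nonneg _).trans (h 1 one_pos le_rfl)
  refine eq_of_forall_nm_sub_le fun ε hε => ?_
  have h1 : 0 < ε / (D + 1) := by positivity
  refine (h _ (lt_min h1 one_pos) (min_le_right _ _)).trans ?_
  refine (mul_le_mul_of_nonneg_right (min_le_left _ _) hD).trans ?_
  rw [div_mul_eq_mul_div, div_le_iff₀ (by linarith)]
  nlinarith

theorem le_of_small {a b : R} (D : R) (h : ∀ ε : R, 0 < ε → ε ≤ 1 → a ≤ b + ε * D) : a ≤ b := by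
  refine le_of_forall_pos_le_add fun ε hε => ?_
  have h0 : 0 ≤ |D| := abs_nonneg D
  have h1 : 0 < ε / (|D| + 1) := by positivity
  have h2 := lt_min h1 (one_pos (α := R))
  refine (h _ h2 (min_le_right _ _)).trans (add_le_add le_rfl ?_)
  refine (mul_le_mul_of_nonneg_left (le_abs_self D) h2.le).trans ?_
  refine (mul_le_mul_of_nonneg_right (min_le_left _ _) h0).trans ?_
  rw [div_mul_eq_mul_div, div_le_iff₀ (by linarith)]
  nlinarith

namespace PreH

variable (h : PreH N K V)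

/-- the seminorm -/
noncomputable def s (x : V) : R := rsqrt (KA.re (h.ip x x))

theorem sip : SIP h.ip h.s :=
  ⟨h.add, h.smul, h.conj, fun _ => rsqrt_nonneg _, fun x => rsqrt_sq N (h.pos x)⟩

@[fun_prop] theorem defF_ip {f g : α → V} (hf : DefF N f) (hg : DefF N g) :
    DefF N (fun a => h.ip (f a) (g a)) := h.defIp.comp2 hf hg

@[fun_prop] theorem defF_s {f : α → V} (hf : DefF N f) : DefF N (fun a => h.s (f a)) := by
  unfold s; fun_prop

/-- `x` approximates `f` -/
def Ap (f : V → K) (x : V) (ε : R) : Prop := ∀ y, nm (f y - h.ip y x) ≤ ε * h.s y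

/-- the uniform limits -/
def sub : Submodule K (V → K) where
  carrier := {f | DefF N f ∧ ∀ ε : R, 0 < ε → ∃ x, h.Ap f x ε}
  add_mem' := fun {f g} hf hg => ⟨hf.1.add hg.1, fun ε hε => by
    obtain ⟨x, hx⟩ := hf.2 _ (half_pos hε)
    obtain ⟨z, hz⟩ := hg.2 _ (half_pos hε)
    refine ⟨x + z, fun y => ?_⟩
    have := nm_add_le (f y - h.ip y x) (g y - h.ip y z)
    rw [h.add, Pi.add_apply, add_sub_add_comm]
    linarith [hx y, hz y]⟩
  zero_mem' := ⟨DefF.const 0, fun ε hε => ⟨0, fun y => by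
    rw [h.sip.zero, Pi.zero_apply, sub_zero, nm_zero]
    exact mul_nonneg hε.le (h.sip.nonneg y)⟩⟩
  smul_mem' := fun c f hf => ⟨(DefF.const c).mul hf.1, fun ε hε => by
    have h0 := nm_nonneg c
    obtain ⟨x, hx⟩ := hf.2 (ε / (nm c + 1)) (by positivity)
    refine ⟨c • x, fun y => ?_⟩
    rw [h.smul, Pi.smul_apply, smul_eq_mul, ← mul_sub, KA.nm_mul]
    refine (mul_le_mul_of_nonneg_left (hx y) h0).trans ?_
    rw [← mul_assoc]
    refine mul_le_mul_of_nonneg_right ?_ (h.sip.nonneg y)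
    rw [mul_div_assoc', div_le_iff₀ (by linarith)]
    nlinarith⟩

end PreH

/-- the completion -/
def Cm (h : PreH N K V) : Type _ := h.sub

namespace Cm

variable {h : PreH N K V}

noncomputable instance : AddCommGroup (Cm h) := inferInstanceAs (AddCommGroup h.sub)
noncomputable instance : Module K (Cm h) := inferInstanceAs (Module K h.sub)

/-- the value of `f` at `y`, that is the inner product of `y` and `f` -/
def ev (f : Cm h) : V → K := f.1

theorem ext {f g : Cm h} (e : ∀ y, f.ev y = g.ev y) : f = g := Subtype.ext (funext e)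

@[simp] theorem ev_add (f g : Cm h) (y : V) : (f + g).ev y = f.ev y + g.ev y := rfl
@[simp] theorem ev_sub (f g : Cm h) (y : V) : (f - g).ev y = f.ev y - g.ev y := rfl
@[simp] theorem ev_neg (f : Cm h) (y : V) : (-f).ev y = -f.ev y := rfl
@[simp] theorem ev_zero (y : V) : (0 : Cm h).ev y = 0 := rfl
@[simp] theorem ev_smul (c : K) (f : Cm h) (y : V) : (c • f).ev y = c * f.ev y := rfl

theorem defF (f : Cm h) : DefF N f.ev := f.2.1

theorem exists_ap (f : Cm h) {ε : R} (hε : 0 < ε) : ∃ x, h.Ap f.ev x ε := f.2.2 ε hε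

/-- an element of the completion from a function -/
def mk (f : V → K) (hf : DefF N f) (k : ∀ ε : R, 0 < ε → ∃ x, h.Ap f x ε) : Cm h := ⟨f, hf, k⟩

@[simp] theorem ev_mk (f : V → K) (hf : DefF N f) (k : ∀ ε : R, 0 < ε → ∃ x, h.Ap f x ε) :
    (mk f hf k).ev = f := rfl

noncomputable instance : Coded N (Cm h) :=
  Coded.pull (α := V → K) ev (fun _ _ _ _ e => Subtype.ext e) (by
    have : DefF N (fun f : V → K => ∀ ε : R, 0 < ε → ∃ x, ∀ y,
        nm (app f y - h.ip y x) ≤ ε * h.s y) := by fun_prop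
    refine this.congrP fun f hf => ⟨fun k => ⟨mk f (DefF.ofIntl f) k, rfl⟩, ?_⟩
    rintro ⟨u, rfl⟩
    exact fun ε hε => u.exists_ap hε)

instance intl_ev (u : Cm h) : Intl N u.ev := u.defF.toIntl

instance intl_cm (u : Cm h) : Intl N u := ⟨intl_ev u⟩

instance : Tot N (Cm h) where
  car := by
    have h1 : Intl N {s : V → K | Intl N s ∧ Dom N (Cm h) (code N s)} := intl_setOf (by fun_prop)
    refine ⟨code N _, fun x => (mem_code_set h1).trans ?_⟩
    constructor
    · rintro ⟨s, ⟨-, f, hf, k⟩, rfl⟩; exact ⟨f, hf, k⟩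
    · rintro ⟨f, hf, rfl⟩; exact ⟨f.ev, ⟨inferInstance, f, hf, rfl⟩, rfl⟩
  all := intl_cm

theorem defF_ev : DefF N (fun u : Cm h => u.ev) :=
  ⟨fun _ _ => inferInstance, (DefF.id (N := N) (α := Cm h)).2⟩

@[fun_prop] theorem defF_app {f : α → Cm h} {g : α → V} (hf : DefF N f) (hg : DefF N g) :
    DefF N (fun a => (f a).ev (g a)) := (defF_ev.comp hf).ap hg

/-- A family of vectors with definable values is definable. -/
theorem defF_cm {f : α → Cm h} (k : DefF N (fun p : α × V => (f p.1).ev p.2)) : DefF N f :=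
  ⟨fun _ _ => inferInstance, (DefF.lam (fun a => (f a).ev) k).2⟩

instance : DefAdd N (Cm h) := ⟨defF_cm (by simp only [ev_add]; fun_prop)⟩
instance : DefSMul N K (Cm h) := ⟨defF_cm (by simp only [ev_smul]; fun_prop)⟩

variable (h) in
/-- the canonical map -/
def io : V →ₗ[K] Cm h where
  toFun x := mk (fun y => h.ip y x) (by fun_prop) fun ε hε => ⟨x, fun y => by
    rw [sub_self, nm_zero]; exact mul_nonneg hε.le (h.sip.nonneg y)⟩
  map_add' x z := ext fun y => h.add y x z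
  map_smul' c x := ext fun y => h.smul c y x

@[simp] theorem ev_io (x y : V) : (io h x).ev y = h.ip y x := rfl

@[fun_prop] theorem defF_io {f : α → V} (hf : DefF N f) : DefF N (fun a => io h (f a)) :=
  defF_cm (by simp only [ev_io]; fun_prop)

theorem ap_sub {f : V → K} {x z : V} {ε η : R} (hε : 0 ≤ ε + η) (hx : h.Ap f x ε)
    (hz : h.Ap f z η) : h.s (x - z) ≤ ε + η := by
  refine h.sip.le_of_ip hε ?_
  have h1 := nm_triangle (h.ip (x - z) x) (f (x - z)) (h.ip (x - z) z)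
  rw [nm_sub_rev _ (f _)] at h1
  rw [h.sip.sub]
  linarith [hx (x - z), hz (x - z)]

theorem ev_lip (g : Cm h) {C : R} (hC : ∀ y, nm (g.ev y) ≤ C * h.s y) (x z : V) :
    nm (g.ev x - g.ev z) ≤ C * h.s (x - z) := by
  have e : g.ev x - g.ev z = g.ev (x - z) := by
    refine eq_of_small (h.s x + h.s z + h.s (x - z)) fun ε hε _ => ?_
    obtain ⟨w, hw⟩ := g.exists_ap hε
    have e1 : g.ev x - g.ev z - g.ev (x - z) =
        (g.ev x - h.ip x w) - (g.ev z - h.ip z w) - (g.ev (x - z) - h.ip (x - z) w) := by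
      rw [h.sip.sub_left]; ring
    rw [e1]
    have a1 := nm_sub_le (g.ev x - h.ip x w - (g.ev z - h.ip z w)) (g.ev (x - z) - h.ip (x - z) w)
    have a2 := nm_sub_le (g.ev x - h.ip x w) (g.ev z - h.ip z w)
    linarith [hw x, hw z, hw (x - z)]
  rw [e]; exact hC _

theorem ap_bdd {g : V → K} {z : V} {η : R} (hz : h.Ap g z η) (y : V) :
    nm (g y) ≤ (h.s z + η) * h.s y := by
  have h1 := nm_le_add_sub (g y) (h.ip y z)
  have h2 := h.sip.cs y z
  linarith [hz y]

/-- `c` is the inner product of `f` and `g` -/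
def Rl (f g : Cm h) (c : K) : Prop :=
  ∀ x ε C, 0 ≤ ε → 0 ≤ C → h.Ap f.ev x ε → (∀ y, nm (g.ev y) ≤ C * h.s y) →
    nm (g.ev x - c) ≤ ε * C

theorem Rl.uniq {f g : Cm h} {c d : K} (hc : Rl f g c) (hd : Rl f g d) : c = d := by
  obtain ⟨z, hz⟩ := g.exists_ap one_pos
  have h0 : 0 ≤ h.s z + 1 := by linarith [h.sip.nonneg z]
  refine eq_of_small (2 * (h.s z + 1)) fun ε hε _ => ?_
  obtain ⟨x, hx⟩ := f.exists_ap hε
  have h1 := nm_triangle c (g.ev x) d
  rw [nm_sub_rev c (g.ev x)] at h1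
  linarith [hc x ε _ hε.le h0 hx (ap_bdd hz), hd x ε _ hε.le h0 hx (ap_bdd hz)]

variable [Cpl N R K]

theorem exists_rl (f g : Cm h) : ∃ c, Rl f g c := by
  obtain ⟨z, hz⟩ := g.exists_ap one_pos
  have h0 : 0 ≤ h.s z + 1 := by linarith [h.sip.nonneg z]
  obtain ⟨x, hx, hx'⟩ := exists_intl_choiceT (N := N)
    (R := fun (n : NN N) (x : V) => ∀ y, nm (f.ev y - h.ip y x) ≤ hp R n * h.s y) (by fun_prop)
    fun n => f.exists_ap (hp_pos n)
  have : Intl N (fun n => g.ev (x n)) := DefF.toIntl (by fun_prop)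
  obtain ⟨c, hc⟩ := geo (N := N) (fun n => g.ev (x n)) (2 * (h.s z + 1)) fun j => by
    refine (g.ev_lip (ap_bdd hz) _ _).trans ?_
    have h1 := ap_sub (add_nonneg (hp_pos j).le (hp_pos (j + 1)).le) (hx' j) (hx' (j + 1))
    have h2 := hp_pos (R := R) j
    rw [hp_succ] at h1
    nlinarith
  refine ⟨c, fun y ε C hε hC hy hg => le_of_forall_hp (N := N) (C + 4 * (h.s z + 1)) fun j => ?_⟩
  have h1 := nm_triangle (g.ev y) (g.ev (x j)) c
  have h2 := g.ev_lip hg y (x j)
  have h3 := ap_sub (add_nonneg hε (hp_pos j).le) hy (hx' j)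
  have h4 := mul_le_mul_of_nonneg_left h3 hC
  linarith [hc j]

/-- the inner product of the completion -/
noncomputable def ip (f g : Cm h) : K := (exists_rl f g).choose

theorem rl_ip (f g : Cm h) : Rl f g (ip f g) := (exists_rl f g).choose_spec

theorem defIp : DefF N (fun p : Cm h × Cm h => ip p.1 p.2) :=
  defF_of_rel (R := fun (p : Cm h × Cm h) (c : K) => ∀ x ε C, 0 ≤ ε → 0 ≤ C →
    (∀ y, nm (p.1.ev y - h.ip y x) ≤ ε * h.s y) → (∀ y, nm (p.2.ev y) ≤ C * h.s y) →
      nm (p.2.ev x - c) ≤ ε * C) (fun _ _ => inferInstance) (by fun_prop) fun p c _ _ =>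
    ⟨fun k => (rl_ip p.1 p.2).uniq k, fun e => e ▸ rl_ip p.1 p.2⟩

theorem ip_io_left (x : V) (g : Cm h) : ip (io h x) g = g.ev x := by
  obtain ⟨z, hz⟩ := g.exists_ap one_pos
  have := rl_ip (io h x) g x 0 _ le_rfl (by linarith [h.sip.nonneg z])
    (fun y => by rw [ev_io, sub_self, nm_zero, zero_mul]) (ap_bdd hz)
  rw [zero_mul, nm_le_zero_iff, sub_eq_zero] at this
  exact this.symm

@[simp] theorem ip_io (x y : V) : ip (io h x) (io h y) = h.ip x y := ip_io_left x _

theorem ip_near {f g : Cm h} {x z : V} {ε η : R} (hε : 0 ≤ ε) (hη : 0 ≤ η) (hx : h.Ap f.ev x ε)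
    (hz : h.Ap g.ev z η) : nm (ip f g - h.ip x z) ≤ ε * (h.s z + η) + η * h.s x := by
  have h1 := rl_ip f g x ε _ hε (add_nonneg (h.sip.nonneg z) hη) hx (ap_bdd hz)
  have h2 := nm_triangle (ip f g) (g.ev x) (h.ip x z)
  rw [nm_sub_rev _ (g.ev x)] at h2
  linarith [hz x]

omit [Cpl N R K] in
theorem exists_bd (f : Cm h) : ∃ D, 0 ≤ D ∧ ∀ x ε, 0 ≤ ε → ε ≤ 1 → h.Ap f.ev x ε → h.s x ≤ D := by
  obtain ⟨z, hz⟩ := f.exists_ap one_pos
  refine ⟨h.s z + 2, by linarith [h.sip.nonneg z], fun x ε h0 h1 hx => ?_⟩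
  linarith [h.sip.s_le_add_sub x z, ap_sub (by linarith) hx hz]

omit [Cpl N R K] in
theorem exists_bdd (g : Cm h) : ∃ C, 0 ≤ C ∧ ∀ y, nm (g.ev y) ≤ C * h.s y := by
  obtain ⟨z, hz⟩ := g.exists_ap one_pos
  exact ⟨_, by linarith [h.sip.nonneg z], ap_bdd hz⟩

theorem ip_eq {f g : Cm h} {c : K} (D : R)
    (k : ∀ x ε, 0 < ε → h.Ap f.ev x ε → nm (g.ev x - c) ≤ ε * D) : ip f g = c := by
  obtain ⟨C, h0, hC⟩ := g.exists_bdd
  refine eq_of_small (C + D) fun ε hε _ => ?_
  obtain ⟨x, hx⟩ := f.exists_ap hε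
  have h1 := nm_triangle (ip f g) (g.ev x) c
  rw [nm_sub_rev _ (g.ev x)] at h1
  linarith [rl_ip f g x ε C hε.le h0 hx hC, k x ε hε hx]

variable (h) in
/-- the completion as a pre-Hilbert space -/
noncomputable def pre : PreH N K (Cm h) where
  ip := ip
  defIp := defIp
  add f g k := by
    obtain ⟨C, h0, hC⟩ := g.exists_bdd
    obtain ⟨D, h1, hD⟩ := k.exists_bdd
    refine ip_eq (C + D) fun x ε hε hx => ?_
    have := nm_add_le (g.ev x - ip f g) (k.ev x - ip f k)
    rw [ev_add, add_sub_add_comm]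
    linarith [rl_ip f g x ε C hε.le h0 hx hC, rl_ip f k x ε D hε.le h1 hx hD]
  smul c f g := by
    obtain ⟨C, h0, hC⟩ := g.exists_bdd
    refine ip_eq (nm c * C) fun x ε hε hx => ?_
    rw [ev_smul, ← mul_sub, KA.nm_mul, mul_left_comm]
    exact mul_le_mul_of_nonneg_left (rl_ip f g x ε C hε.le h0 hx hC) (nm_nonneg c)
  conj f g := by
    obtain ⟨C, -, hC⟩ := f.exists_bd
    obtain ⟨D, -, hD⟩ := g.exists_bd
    refine eq_of_small (2 * (C + D + 1)) fun ε hε h1 => ?_
    obtain ⟨x, hx⟩ := f.exists_ap hε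
    obtain ⟨z, hz⟩ := g.exists_ap hε
    have a1 := ip_near hε.le hε.le hx hz
    have a2 := ip_near hε.le hε.le hz hx
    have a3 := nm_triangle (KA.conj (ip f g)) (h.ip z x) (ip g f)
    rw [nm_sub_rev (h.ip z x)] at a3
    rw [← KA.nm_conj, map_sub, h.conj] at a1
    have a4 := hC x ε hε.le h1 hx
    have a5 := hD z ε hε.le h1 hz
    nlinarith
  pos f := by
    obtain ⟨C, -, hC⟩ := f.exists_bd
    refine le_of_small (2 * C + 1) fun ε hε h1 => ?_
    obtain ⟨x, hx⟩ := f.exists_ap hε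
    have a1 := ip_near hε.le hε.le hx hx
    rw [nm_sub_rev] at a1
    have a2 := (KA.re_le_nm _).trans a1
    rw [map_sub] at a2
    have a3 := hC x ε hε.le h1 hx
    have a4 := h.pos x
    nlinarith

noncomputable instance : Nm (Cm h) R := ⟨(pre h).s⟩

theorem sip : SIP (ip : Cm h → Cm h → K) nm := (pre h).sip

@[simp] theorem nm_io (x : V) : nm (io h x) = h.s x := by
  show rsqrt (KA.re (ip _ _)) = _
  rw [ip_io]; rfl

theorem nm_ev_le (f : Cm h) (y : V) : nm (f.ev y) ≤ nm f * h.s y := by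
  rw [← ip_io_left, ← nm_io, mul_comm]
  exact sip.cs _ _

theorem nm_le {f : Cm h} {C : R} (hC : 0 ≤ C) (k : ∀ y, nm (f.ev y) ≤ C * h.s y) : nm f ≤ C := by
  refine le_of_sq_le_sq ?_ hC
  rw [sip.sq]
  refine le_of_small (2 * C) fun ε hε _ => ?_
  obtain ⟨x, hx⟩ := f.exists_ap hε
  have a1 := rl_ip f f x ε C hε.le hC hx k
  have a2 : h.s x ≤ C + ε := by
    refine h.sip.le_of_ip (by linarith) ?_
    have := nm_le_add_sub (h.ip x x) (f.ev x)
    rw [nm_sub_rev] at this
    linarith [k x, hx x]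
  have a3 := nm_le_add_sub (ip f f) (f.ev x)
  rw [nm_sub_rev] at a3
  have a4 := mul_le_mul_of_nonneg_left a2 hC
  linarith [KA.re_le_nm (ip f f), k x]

instance : NA R K (Cm h) where
  nm_add := sip.s_add
  nm_smul := sip.s_smul
  eq_zero_of_nm f e := ext fun y => by
    have := f.nm_ev_le y
    rwa [e, zero_mul, nm_le_zero_iff] at this

instance : NS N R K (Cm h) where
  defAdd := inferInstance
  defSMul := inferInstance
  defNm := ⟨(pre h).defF_s DefF.id⟩

theorem ap_iff {f : Cm h} {x : V} {ε : R} (hε : 0 ≤ ε) : h.Ap f.ev x ε ↔ nm (f - io h x) ≤ ε :=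
  ⟨fun k => nm_le hε k, fun k y => ((f - io h x).nm_ev_le y).trans
    (mul_le_mul_of_nonneg_right k (h.sip.nonneg y))⟩

/-- The image of `V` is dense. -/
theorem dense (f : Cm h) {ε : R} (hε : 0 < ε) : ∃ x, nm (f - io h x) ≤ ε :=
  (f.exists_ap hε).imp fun _ k => (ap_iff hε.le).1 k

instance : Cpl N R (Cm h) where
  lim f hf k := by
    obtain ⟨g, hg, hg'⟩ := exists_intl_choiceT (N := N)
      (R := fun (y : V) (c : K) => ∀ ε : R, 0 < ε → ∃ n, ∀ j, n ≤ j → nm ((f j).ev y - c) < ε)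
      (by fun_prop) fun y => Cpl.lim (R := R) (fun j => (f j).ev y) (DefF.toIntl (by fun_prop))
        fun ε hε => by
          have h0 := h.sip.nonneg y
          obtain ⟨n, hn⟩ := k (ε / (h.s y + 1)) (by positivity)
          refine ⟨n, fun j l hj hl => ((f j - f l).nm_ev_le y).trans_lt ?_⟩
          have h1 := hn j l hj hl
          rw [lt_div_iff₀ (by linarith)] at h1
          nlinarith [nm_nonneg (f j - f l)]
    have key : ∀ ε : R, 0 < ε → ∃ n, ∀ j, n ≤ j → ∀ y, nm ((f j).ev y - g y) ≤ ε * h.s y := by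
      intro ε hε
      obtain ⟨n, hn⟩ := k ε hε
      refine ⟨n, fun j hj y => le_of_forall_pos_le_add fun η hη => ?_⟩
      obtain ⟨m, hm⟩ := hg' y η hη
      have a1 := nm_triangle ((f j).ev y) ((f (max n m)).ev y) (g y)
      have a2 : nm ((f j).ev y - (f (max n m)).ev y) ≤ _ := (f j - f (max n m)).nm_ev_le y
      have a3 := mul_le_mul_of_nonneg_right (hn j _ hj (le_max_left n m)).le (h.sip.nonneg y)
      linarith [hm _ (le_max_right n m)]
    refine ⟨mk g (DefF.ofIntl g) fun ε hε => ?_, fun ε hε => ?_⟩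
    · obtain ⟨n, hn⟩ := key _ (half_pos hε)
      obtain ⟨x, hx⟩ := (f n).exists_ap (half_pos hε)
      refine ⟨x, fun y => ?_⟩
      have a1 := nm_triangle (g y) ((f n).ev y) (h.ip y x)
      rw [nm_sub_rev (g y) ((f n).ev y)] at a1
      linarith [hn n le_rfl y, hx y]
    · obtain ⟨n, hn⟩ := key _ (half_pos hε)
      exact ⟨n, fun j hj => (nm_le (half_pos hε).le (hn j hj)).trans_lt (half_lt_self hε)⟩

end Cm

end Vale.Agent.P129B
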