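import Vale.Agent.P070ZC.Lift
import Vale.Agent.P070ZA.Hs

/-!
# The completion is a Hilbert space of the model
-/

set_option linter.unusedSectionVars false

namespace Vale.Agent.P070Z

open Vale.Agent.P129B

universe v

variable {N : Type v} [ZM N] {R K : Type*} [Nm K R] [Field R] [LinearOrder R]
  [IsStrictOrderedRing R] [Field K] [Algebra R K] [KA R K] [StarRing K] [CX R K]
  [Coded N R] [RF N R] [Coded N K] [KF N R K]

instance (priority := 100) cplK : Cpl N R K := cpl_scalars

variable {V : Type*} [AddCommGroup V] [Module K V] [Coded N V] [Tot N V] [DefAdd N V]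
  [DefSMul N K V] {h : PreH N K V}

noncomputable instance : Ip (Cm h) K := ⟨Cm.ip⟩

instance : IA R K (Cm h) where
  ip_add := Cm.sip.add
  ip_smul := Cm.sip.smul
  ip_star x y := (CX.star_eq _).trans (Cm.sip.conj x y)
  ip_self := Cm.sip.self

instance : HS N R K (Cm h) where
  defIp := Cm.defIp

theorem cm_ip (f g : Cm h) : ip f g = Cm.ip f g := rfl

@[simp] theorem ip_io (x y : V) : ip (Cm.io h x) (Cm.io h y) = h.ip x y := Cm.ip_io x y

theorem ip_io_left (x : V) (g : Cm h) : ip (Cm.io h x) g = g.ev x := Cm.ip_io_left x g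

theorem ip_lift {W : Type*} [AddCommGroup W] [Module K W] [Coded N W] [Tot N W] [DefAdd N W]
    [DefSMul N K W] {k : PreH N K W} {T : V → W} {T' : W → V} {C C' : R} (a : Adj h k T T' C)
    (b : Adj k h T' T C') (g : Cm k) (f : Cm h) : ip g (Cm.lift a f) = ip (Cm.lift b g) f :=
  Cm.ip_lift a b g f

end Vale.Agent.P070Z
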