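import Vale.Agent.P070ZC.Cm
import Vale.Agent.P129BN.Elim2

/-!
# Extension of operators to the completion; completeness of the scalars
-/

set_option linter.unusedSectionVars false

namespace Vale.Agent.P129B

universe v

variable {N : Type v} [ZM N] {α : Type*} [Coded N α]
  {R : Type*} [Field R] [LinearOrder R] [IsStrictOrderedRing R] [Coded N R] [RF N R]
  {K : Type*} [Field K] [Algebra R K] [Nm K R] [KA R K] [Coded N K] [KF N R K]

/-- The scalars are complete. -/
theorem cpl_scalars : Cpl N R K where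
  lim s hs h := by
    have h1 : Intl N (fun k => KA.re (s k)) := DefF.toIntl (by fun_prop)
    have h2 : Intl N (fun k => KA.im (s k)) := DefF.toIntl (by fun_prop)
    obtain ⟨a, ha⟩ := cauchy_lim RF.lub (fun k => KA.re (s k)) fun ε hε =>
      (h ε hε).imp fun n hn k l hk hl => by
        rw [← map_sub]; exact (KA.abs_re_le_nm _).trans_lt (hn k l hk.le hl.le)
    obtain ⟨b, hb⟩ := cauchy_lim RF.lub (fun k => KA.im (s k)) fun ε hε =>
      (h ε hε).imp fun n hn k l hk hl => by
        rw [← map_sub]; exact (KA.abs_im_le_nm _).trans_lt (hn k l hk.le hl.le)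
    refine ⟨algebraMap R K a + algebraMap R K b * KA.I, fun ε hε => ?_⟩
    obtain ⟨n, hn⟩ := ha (ε / 2) (half_pos hε)
    obtain ⟨m, hm⟩ := hb (ε / 2) (half_pos hε)
    refine ⟨max n m + 1, fun k hk => ?_⟩
    have hk' := NN.add_one_le_iff.1 hk
    have h3 := hn k ((le_max_left _ _).trans_lt hk')
    have h4 := hm k ((le_max_right _ _).trans_lt hk')
    have h5 : s k - (algebraMap R K a + algebraMap R K b * KA.I) =
        algebraMap R K (KA.re (s k) - a) + algebraMap R K (KA.im (s k) - b) * KA.I := by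
      conv_lhs => rw [← KA.re_add_im (s k)]
      rw [map_sub, map_sub]; ring
    rw [h5]
    refine (nm_add_le _ _).trans_lt ?_
    rw [KA.nm_mul, KA.nm_ofR, KA.nm_ofR]
    have h6 := mul_le_of_le_one_right (abs_nonneg (KA.im (s k) - b)) (KA.nm_I_le (K := K))
    linarith

variable {V : Type*} [AddCommGroup V] [Module K V] [Coded N V] [Tot N V] [DefAdd N V]
  [DefSMul N K V]
  {W : Type*} [AddCommGroup W] [Module K W] [Coded N W] [Tot N W] [DefAdd N W] [DefSMul N K W]

/-- `T'` is a bounded definable formal adjoint of `T` -/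
structure Adj (h : PreH N K V) (k : PreH N K W) (T : V → W) (T' : W → V) (C : R) : Prop where
  defF : DefF N T'
  adj : ∀ w x, k.ip w (T x) = h.ip (T' w) x
  nonneg : 0 ≤ C
  bd : ∀ w, h.s (T' w) ≤ C * k.s w

namespace Cm

variable {h : PreH N K V} {k : PreH N K W} {T : V → W} {T' : W → V} {C : R}

/-- the extension of `T` -/
def lift (a : Adj h k T T' C) : Cm h →ₗ[K] Cm k where
  toFun f := mk (fun w => f.ev (T' w)) (f.defF.comp a.defF) fun ε hε => by
    have h0 := a.nonneg
    obtain ⟨x, hx⟩ := f.exists_ap (show 0 < ε / (C + 1) by positivity)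
    refine ⟨T x, fun w => ?_⟩
    rw [a.adj]
    refine (hx _).trans ((mul_le_mul_of_nonneg_left (a.bd w) (by positivity)).trans ?_)
    rw [← mul_assoc]
    refine mul_le_mul_of_nonneg_right ?_ (k.sip.nonneg w)
    rw [div_mul_eq_mul_div, div_le_iff₀ (by linarith)]
    nlinarith
  map_add' _ _ := rfl
  map_smul' _ _ := rfl

@[simp] theorem ev_lift (a : Adj h k T T' C) (f : Cm h) (w : W) : (lift a f).ev w = f.ev (T' w) :=
  rfl

@[simp] theorem lift_io (a : Adj h k T T' C) (x : V) : lift a (io h x) = io k (T x) :=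
  ext fun w => (a.adj w x).symm

theorem defF_lift (a : Adj h k T T' C) : DefF N (fun f => lift a f) := by
  have := a.defF
  exact defF_cm (by simp only [ev_lift]; fun_prop)

theorem ev_add_arg (f : Cm h) (x y : V) : f.ev (x + y) = f.ev x + f.ev y := by
  have := cpl_scalars (N := N) (K := K)
  rw [← ip_io_left, ← ip_io_left, ← ip_io_left, map_add, sip.add_left]

theorem ev_smul_arg (f : Cm h) (c : K) (x : V) : f.ev (c • x) = KA.conj c * f.ev x := by
  have := cpl_scalars (N := N) (K := K)
  rw [← ip_io_left, ← ip_io_left, map_smul, sip.smul_left]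

theorem ev_congr (f : Cm h) {x y : V} (e : h.s (x - y) = 0) : f.ev x = f.ev y := by
  obtain ⟨D, -, hD⟩ := f.exists_bdd
  have := f.ev_lip hD x y
  rwa [e, mul_zero, nm_le_zero_iff, sub_eq_zero] at this

variable [Cpl N R K]

theorem nm_lift_le (a : Adj h k T T' C) (f : Cm h) : nm (lift a f) ≤ C * nm f :=
  nm_le (mul_nonneg a.nonneg (nm_nonneg f)) fun w => (f.nm_ev_le _).trans (by
    rw [mul_comm C, mul_assoc]
    exact mul_le_mul_of_nonneg_left (a.bd w) (nm_nonneg f))

/-- Lipschitz functions which agree on the image of `V` agree. -/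
theorem ext_io {E : Type*} [AddCommGroup E] [Nm E R] [NG R E] {F G : Cm h → E} {D D' : R}
    (hF : ∀ f g, nm (F f - F g) ≤ D * nm (f - g)) (hG : ∀ f g, nm (G f - G g) ≤ D' * nm (f - g))
    (e : ∀ x, F (io h x) = G (io h x)) (f : Cm h) : F f = G f := by
  refine sub_eq_zero.1 (nm_le_zero_iff.1 (le_of_small (|D| + |D'|) fun ε hε _ => ?_))
  obtain ⟨x, hx⟩ := f.dense hε
  have a1 := nm_triangle (F f) (F (io h x)) (G f)
  have a2 := hF f (io h x)
  have a3 := hG f (io h x)
  rw [← e, nm_sub_rev] at a3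
  have a4 := nm_nonneg (f - io h x)
  have a5 := mul_le_mul (le_abs_self D) hx a4 (abs_nonneg D)
  have a6 := mul_le_mul (le_abs_self D') hx a4 (abs_nonneg D')
  linarith

/-- The extensions of formal adjoints are adjoint. -/
theorem ip_lift {C' : R} (a : Adj h k T T' C) (b : Adj k h T' T C') (g : Cm k) (f : Cm h) :
    ip g (lift a f) = ip (lift b g) f := by
  refine ext_io (h := k) (F := fun g => ip g (lift a f)) (G := fun g => ip (lift b g) f)
    (D := nm (lift a f)) (D' := C' * nm f) (fun g g' => ?_) (fun g g' => ?_) (fun w => ?_) g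
  · rw [← sip.sub_left, mul_comm]; exact sip.cs _ _
  · rw [← sip.sub_left, ← map_sub, mul_right_comm]
    exact (sip.cs _ _).trans (mul_le_mul_of_nonneg_right (nm_lift_le b _) (nm_nonneg f))
  · rw [lift_io, ip_io_left, ip_io_left, ev_lift]

theorem eq_zero_of_ip_io {f : Cm h} (e : ∀ x, ip (io h x) f = 0) : f = 0 :=
  ext fun x => (ip_io_left x f).symm.trans (e x)

end Cm

end Vale.Agent.P129B
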