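import Vale.Agent.P070ZA.Op

/-!
# Strong limits of sequences of unitaries
-/

set_option linter.unusedSectionVars false

namespace Vale.Agent.P070Z

open Vale.Agent.P129B

universe v

variable {N : Type v} [ZM N] {R K : Type*} [Nm K R] [Field R] [LinearOrder R]
  [IsStrictOrderedRing R] [Field K] [Algebra R K] [KA R K] [StarRing K] [CX R K]
  [Coded N R] [RF N R] [Coded N K] [KF N R K]

theorem Tt.add' {E : Type*} [AddCommGroup E] [Nm E R] [NG R E] {s t : NN N → E} {x y : E}
    (h : Tt s x) (k : Tt t y) : Tt (fun j => s j + t j) (x + y) := fun ε hε => by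
  obtain ⟨n, hn⟩ := h _ (half_pos hε)
  obtain ⟨m, hm⟩ := k _ (half_pos hε)
  refine ⟨max n m, fun j hj => ?_⟩
  have := nm_add_le (s j - x) (t j - y)
  rw [add_sub_add_comm]
  linarith [hn j ((le_max_left _ _).trans hj), hm j ((le_max_right _ _).trans hj)]

variable {H : Type*} [AddCommGroup H] [Module K H] [Nm H R] [Ip H K] [IA R K H] [Coded N H]
  [HS N R K H]

theorem Tt.smul' {s : NN N → H} {x : H} (h : Tt s x) (c : K) : Tt (fun j => c • s j) (c • x) :=
  h.map (f := fun z => c • z) (C := nm c) fun a b => by rw [← smul_sub, nm_smul]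

theorem Tt.ip_right {s : NN N → H} {x : H} (h : Tt s x) (w : H) :
    Tt (fun j => ip w (s j)) (ip w x) :=
  h.map (f := fun z => ip w z) (C := nm w) fun a b => by rw [← ip_sub_right]; exact nm_ip_le _ _

theorem Tt.ip_left {s : NN N → H} {x : H} (h : Tt s x) (w : H) :
    Tt (fun j => ip (s j) w) (ip x w) :=
  h.map (f := fun z => ip z w) (C := nm w) fun a b => by
    rw [← ip_sub_left, mul_comm]; exact nm_ip_le _ _

variable (K) in
include K in
/-- Strong convergence from norm convergence after composing with a map with dense range. -/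
theorem exists_strong_fun {k : H → H} (dense : ∀ (x : H) (ε : R), 0 < ε → ∃ y, nm (x - k y) < ε)
    {U : NN N → H → H} (hU : DefF N (fun p : NN N × H => U p.1 p.2))
    (sub : ∀ j x y, U j (x - y) = U j x - U j y) (le : ∀ j x, nm (U j x) ≤ nm x) {C : R}
    (hc : ∀ j y, nm (U (j + 1) (k y) - U j (k y)) ≤ C * hp R j * nm y) :
    ∃ V : H → H, DefF N V ∧ ∀ x, Tt (fun j => U j x) (V x) := by
  have h1 : ∀ x, ∃ z, Tt (fun j => U j x) z := fun x => exists_tt (by fun_prop) fun ε hε => by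
    obtain ⟨y, hy⟩ := dense x (ε / 4) (by linarith)
    obtain ⟨w, hw, -⟩ := exists_lim_hp (N := N) (s := fun j => U j (k y)) (by fun_prop)
      (C := C * nm y) fun j => (hc j y).trans_eq (by ring)
    obtain ⟨n, hn⟩ := hw (ε / 4) (by linarith)
    refine ⟨n, fun j l hj hl => ?_⟩
    have a1 := le j (x - k y)
    have a2 := le l (k y - x)
    rw [sub] at a1 a2
    rw [nm_sub_rev (k y)] at a2
    have a3 := hn j hj
    have a4 := hn l hl
    rw [nm_sub_rev] at a4
    linarith [nm_triangle (U j x) (U j (k y)) (U l x), nm_triangle (U j (k y)) w (U l x),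
      nm_triangle w (U l (k y)) (U l x)]
  obtain ⟨V, hV, H⟩ := exists_intl_choiceT (N := N) (R := fun x z => Tt (fun j => U j x) z)
    (by fun_prop) h1
  exact ⟨V, DefF.ofIntl V, H⟩

/-- The strong limits of a sequence of unitaries and of the adjoint sequence. -/
theorem strong_pair {k k' : H → H} (dense : ∀ (x : H) (ε : R), 0 < ε → ∃ y, nm (x - k y) < ε)
    (dense' : ∀ (x : H) (ε : R), 0 < ε → ∃ y, nm (x - k' y) < ε)
    {U U' : NN N → H → H} (hU : DefF N (fun p : NN N × H => U p.1 p.2))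
    (hU' : DefF N (fun p : NN N × H => U' p.1 p.2))
    (adj : ∀ j x y, ip (U' j x) y = ip x (U j y)) (h1 : ∀ j x, U' j (U j x) = x)
    (h2 : ∀ j x, U j (U' j x) = x) {C C' : R}
    (hc : ∀ j y, nm (U (j + 1) (k y) - U j (k y)) ≤ C * hp R j * nm y)
    (hc' : ∀ j y, nm (U' (j + 1) (k' y) - U' j (k' y)) ≤ C' * hp R j * nm y) :
    ∃ V V' : H → H, DefF N V ∧ DefF N V' ∧ (∀ x y, V (x + y) = V x + V y) ∧
      (∀ (c : K) x, V (c • x) = c • V x) ∧ (∀ x y, V' (x + y) = V' x + V' y) ∧
      (∀ (c : K) x, V' (c • x) = c • V' x) ∧ (∀ x, nm (V x) = nm x) ∧ (∀ x, nm (V' x) = nm x) ∧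
      (∀ x y, ip (V' x) y = ip x (V y)) ∧ (∀ x, V' (V x) = x) ∧ (∀ x, V (V' x) = x) ∧
      (∀ x, Tt (fun j => U j x) (V x)) ∧ ∀ x, Tt (fun j => U' j x) (V' x) := by
  have adj' : ∀ j x y, ip (U j x) y = ip x (U' j y) := fun j x y => by
    rw [← star_ip, ← adj, star_ip]
  have n1 : ∀ j x, nm (U j x) = nm x := fun j x => by
    refine (sq_eq_sq₀ (nm_nonneg _) (nm_nonneg _)).1 ?_
    rw [← re_ip_self, ← adj, h1, re_ip_self]
  have n2 : ∀ j x, nm (U' j x) = nm x := fun j x => by rw [← n1 j, h2]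
  have s1 : ∀ j x y, U j (x - y) = U j x - U j y := fun j x y => ext_ip_left fun w => by
    rw [ip_sub_right, ← adj, ← adj, ← adj, ip_sub_right]
  have s2 : ∀ j x y, U' j (x - y) = U' j x - U' j y := fun j x y => ext_ip_left fun w => by
    rw [ip_sub_right, ← adj', ← adj', ← adj', ip_sub_right]
  obtain ⟨V, hV, t1⟩ := exists_strong_fun K dense hU s1 (fun j x => (n1 j x).le) hc
  obtain ⟨V', hV', t2⟩ := exists_strong_fun K dense' hU' s2 (fun j x => (n2 j x).le) hc'
  have ad : ∀ x y, ip (V' x) y = ip x (V y) := fun x y =>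
    ((t2 x).ip_left y).uniq (by simpa only [adj] using (t1 y).ip_right x)
  have ad' : ∀ x y, ip (V x) y = ip x (V' y) := fun x y => by rw [← star_ip, ← ad, star_ip]
  have m1 : ∀ x, nm (V x) = nm x := fun x =>
    le_antisymm ((t1 x).nm_le fun j => (n1 j x).le) ((t1 x).le_nm fun j => (n1 j x).ge)
  have m2 : ∀ x, nm (V' x) = nm x := fun x =>
    le_antisymm ((t2 x).nm_le fun j => (n2 j x).le) ((t2 x).le_nm fun j => (n2 j x).ge)
  have inv : ∀ {A B : H → H}, (∀ x, nm (A x) = nm x) → (∀ x, nm (B x) = nm x) →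
      (∀ x y, ip (A x) y = ip x (B y)) → ∀ x, B (A x) = x := fun {A B} a b c x => by
    have e := nm_sub_sq x (B (A x))
    rw [b, a, ← c, re_ip_self, a] at e
    have : nm (x - B (A x)) = 0 := pow_eq_zero_iff two_ne_zero |>.1 (by linarith)
    exact (sub_eq_zero.1 (nm_eq_zero.1 this)).symm
  refine ⟨V, V', hV, hV', fun x y => ext_ip_left fun w => ?_, fun c x => ext_ip_left fun w => ?_,
    fun x y => ext_ip_left fun w => ?_, fun c x => ext_ip_left fun w => ?_, m1, m2, ad,
    inv m1 m2 ad', inv m2 m1 ad, t1, t2⟩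
  · rw [ip_add_right, ← ad, ← ad, ← ad, ip_add_right]
  · rw [ip_smul_right, ← ad, ← ad, ip_smul_right]
  · rw [ip_add_right, ← ad', ← ad', ← ad', ip_add_right]
  · rw [ip_smul_right, ← ad', ← ad', ip_smul_right]

/-- A sequence of unitaries which converges geometrically on two dense ranges has a unitary
strong limit. -/
theorem Op.strong_unitary {k k' : Op N K H}
    (dense : ∀ (x : H) (ε : R), 0 < ε → ∃ y, nm (x - k y) < ε)
    (dense' : ∀ (x : H) (ε : R), 0 < ε → ∃ y, nm (x - k' y) < ε)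
    {U : NN N → Op N K H} (hU : DefF N U) (h1 : ∀ j, star (U j) * U j = 1)
    (h2 : ∀ j, U j * star (U j) = 1) {C C' : R}
    (hc : ∀ j, nm ((U (j + 1) - U j) * k) ≤ C * hp R j)
    (hc' : ∀ j, nm ((star (U (j + 1)) - star (U j)) * k') ≤ C' * hp R j) :
    ∃ V : Op N K H, star V * V = 1 ∧ V * star V = 1 ∧ (∀ x, Tt (fun j => U j x) (V x)) ∧
      ∀ x, Tt (fun j => (star (U j)) x) ((star V) x) := by
  obtain ⟨V, V', hV, hV', -, -, -, -, n1, -, ad, i1, i2, t1, t2⟩ :=
    strong_pair (N := N) (U := fun j x => U j x) (U' := fun j x => (star (U j)) x) dense dense'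
      (by fun_prop) (by fun_prop) (fun j => ip_star_left (U j))
      (fun j x => by rw [← Op.mul_apply, h1, Op.one_apply])
      (fun j x => by rw [← Op.mul_apply, h2, Op.one_apply]) (C := C) (C' := C')
      (fun j y => Op.le_of_opNorm_le (hc j) y) (fun j y => Op.le_of_opNorm_le (hc' j) y)
  obtain ⟨u, hu⟩ := exists_op (N := N) V V' hV hV' ad 1 fun x => by rw [n1, one_mul]
  have hs : ∀ x, (star u) x = V' x := fun x => ext_ip_right fun y => by
    rw [ip_star_left, hu, ad]
  refine ⟨u, Op.ext fun x => ?_, Op.ext fun x => ?_, fun x => ?_, fun x => ?_⟩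
  · rw [Op.mul_apply, hs, hu, i1, Op.one_apply]
  · rw [Op.mul_apply, hs, hu, i2, Op.one_apply]
  · rw [hu]; exact t1 x
  · rw [hs]; exact t2 x

/-- Passing to the strong limit in a norm estimate. -/
theorem Op.nm_le_of_tt {U : NN N → Op N K H} {V : Op N K H} (h : ∀ x, Tt (fun j => U j x) (V x))
    {a b : Op N K H} {C : R} {n : NN N} (hC : ∀ j, n ≤ j → nm (U j * a - b) ≤ C) :
    nm (V * a - b) ≤ C := by
  refine Op.nm_le_of_ball fun x hx => le_of_forall_pos_le_add fun ε hε => ?_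
  obtain ⟨m, hm⟩ := h (a x) ε hε
  have h1 := hm (max m n) (le_max_left _ _)
  have h2 := ((U (max m n) * a - b).le_nm_of_le_one hx).trans (hC _ (le_max_right _ _))
  rw [nm_sub_rev] at h1
  rw [Op.sub_apply, Op.mul_apply] at h2 ⊢
  linarith [nm_triangle (V (a x)) (U (max m n) (a x)) (b x)]

end Vale.Agent.P070Z
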